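import Vale.Agent.P372.Zero.Stack.Basic

/-!
One pair of vectors against a certified stacked map.
-/

noncomputable section

open Matrix Finset
open scoped ComplexOrder Kronecker MatrixOrder

namespace Vale.Agent.P372.Stack

section chan
variable {P Z I : Type} [Fintype P] [DecidableEq P] [Fintype Z] [DecidableEq Z] [Fintype I]
  [DecidableEq I] (J : Matrix (P × Z) I ℂ)

theorem chan_add (X Y : Matrix Z Z ℂ) : chan J (X + Y) = chan J X + chan J Y := by
  simp [chan, kronecker_add, Matrix.mul_add, Matrix.add_mul]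

theorem chan_sub (X Y : Matrix Z Z ℂ) : chan J (X - Y) = chan J X - chan J Y :=
  eq_sub_of_add_eq (by rw [← chan_add, sub_add_cancel])

theorem chan_smul (c : ℂ) (X : Matrix Z Z ℂ) : chan J (c • X) = c • chan J X := by
  simp [chan, kronecker_smul]

theorem chan_conjTranspose (X : Matrix Z Z ℂ) : (chan J X)ᴴ = chan J Xᴴ := by
  simp [chan, conjTranspose_kronecker, Matrix.mul_assoc]

theorem chan_psd {X : Matrix Z Z ℂ} (hX : X.PosSemidef) : (chan J X).PosSemidef :=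
  (PosSemidef.one.kronecker hX).conjTranspose_mul_mul_same J

theorem dual_add (M N : Matrix I I ℂ) : dual J (M + N) = dual J M + dual J N := by
  simp only [dual, Matrix.mul_add, Matrix.add_mul, submatrix_add, Pi.add_apply,
    Finset.sum_add_distrib]

theorem dual_sub (M N : Matrix I I ℂ) : dual J (M - N) = dual J M - dual J N :=
  eq_sub_of_add_eq (by rw [← dual_add, sub_add_cancel])

theorem dual_smul (c : ℂ) (M : Matrix I I ℂ) : dual J (c • M) = c • dual J M := by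
  simp [dual, Finset.smul_sum, submatrix_smul]

theorem dual_sum {K : Type} (s : Finset K) (M : K → Matrix I I ℂ) :
    dual J (∑ k ∈ s, M k) = ∑ k ∈ s, dual J (M k) := by
  induction s using Finset.cons_induction with
  | empty => simp [dual]
  | cons a s ha ih => rw [Finset.sum_cons, Finset.sum_cons, dual_add, ih]

theorem dual_psd {M : Matrix I I ℂ} (hM : M.PosSemidef) : (dual J M).PosSemidef :=
  sum_psd _ fun _ _ => (hM.mul_mul_conjTranspose_same J).submatrix _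

theorem trace_chan (X : Matrix Z Z ℂ) (M : Matrix I I ℂ) :
    (chan J X * M).trace = (X * dual J M).trace := by
  have h : (chan J X * M).trace = (((1 : Matrix P P ℂ) ⊗ₖ X) * (J * M * Jᴴ)).trace := by
    rw [chan, Matrix.mul_assoc, Matrix.mul_assoc, trace_mul_comm, Matrix.mul_assoc]
  rw [h, dual, Finset.mul_sum, trace_sum]
  simp only [Matrix.trace, diag_apply, Matrix.mul_apply, Fintype.sum_prod_type,
    kroneckerMap_apply, submatrix_apply, one_apply, ite_mul, one_mul, zero_mul,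
    Finset.sum_ite_irrel, Finset.sum_const_zero, Finset.sum_ite_eq, Finset.mem_univ, if_true]

theorem qf_chan (X : Matrix Z Z ℂ) (x y : I → ℂ) :
    qf (chan J X) x y = (X * dual J (vecMulVec y (star x))).trace := by
  rw [qf_trace, trace_chan]

/-- A state `ρ` in the image of `R * R`, with the certificate `D`. -/
structure Data (R : Matrix Z Z ℂ) (ρ ρi : Matrix I I ℂ) (D : Matrix (P × Z) (P × Z) ℂ) : Prop where
  hR : R.IsHermitian
  heq : chan J (R * R) = ρ
  hinv : ρ * ρi = 1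
  hi : ρi.IsHermitian
  hD : D.IsHermitian
  hD1 : (1 - D * D).PosSemidef
  cert : ∀ V W : Matrix Z Z ℂ, chan J (R * W) * ρi * chan J (Vᴴ * R)
    = Jᴴ * ((1 : Matrix P P ℂ) ⊗ₖ Vᴴ) * D * ((1 : Matrix P P ℂ) ⊗ₖ W) * J

variable {J}
variable {R : Matrix Z Z ℂ} {ρ ρi : Matrix I I ℂ} {D : Matrix (P × Z) (P × Z) ℂ}

theorem Data.psd (h : Data J R ρ ρi D) : ρ.PosSemidef :=
  h.heq ▸ chan_psd J (sq_psd h.hR)

/-- The twisted Schwarz inequality. -/
theorem Data.twisted (h : Data J R ρ ρi D) (Y : Matrix Z Z ℂ) :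
    (chan J (Yᴴ * Y) - chan J (R * Y) * ρi * chan J (Yᴴ * R)).PosSemidef := by
  have h1 : (1 - D).PosSemidef := by
    have hs := psd_smul ((posSemidef_conjTranspose_mul_self (1 - D)).add h.hD1)
      (c := 1 / 2) (by norm_num)
    convert hs using 1
    rw [conjTranspose_sub, conjTranspose_one, h.hD.eq, Matrix.sub_mul, Matrix.one_mul,
      Matrix.mul_sub, Matrix.mul_one]
    push_cast
    module
  have h2 := h1.conjTranspose_mul_mul_same (((1 : Matrix P P ℂ) ⊗ₖ Y) * J)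
  convert h2 using 1
  rw [h.cert Y Y, chan, Matrix.mul_sub, Matrix.sub_mul, Matrix.mul_one, conjTranspose_mul,
    conjTranspose_kronecker, conjTranspose_one]
  have hm : ((1 : Matrix P P ℂ) ⊗ₖ Yᴴ) * (1 ⊗ₖ Y) = 1 ⊗ₖ (Yᴴ * Y) := by
    rw [← mul_kronecker_mul, Matrix.one_mul]
  simp only [← hm, Matrix.mul_assoc]

/-- The Schwarz inequality. -/
theorem Data.schwarz (h : Data J R ρ ρi D) (Y : Matrix Z Z ℂ) :
    (chan J (Yᴴ * Y) - chan J (Yᴴ * R) * ρi * chan J (R * Y)).PosSemidef := by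
  set R₁ : Matrix (P × Z) (P × Z) ℂ := (1 : Matrix P P ℂ) ⊗ₖ R with hR₁
  set Y₁ : Matrix (P × Z) (P × Z) ℂ := (1 : Matrix P P ℂ) ⊗ₖ Y with hY₁
  set Q : Matrix (P × Z) (P × Z) ℂ := R₁ * J * ρi * Jᴴ * R₁ with hQ
  have hR₁H : R₁ᴴ = R₁ := by rw [hR₁, conjTranspose_kronecker, conjTranspose_one, h.hR.eq]
  have hQH : Qᴴ = Q := by
    simp only [hQ, conjTranspose_mul, conjTranspose_conjTranspose, hR₁H, h.hi.eq,
      Matrix.mul_assoc]
  have hmid : Jᴴ * (R₁ * (R₁ * J)) = ρ := by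
    rw [← h.heq, chan, ← Matrix.mul_assoc R₁, hR₁, ← mul_kronecker_mul, Matrix.one_mul,
      Matrix.mul_assoc]
  have hQQ : Q * Q = Q := by
    calc Q * Q = R₁ * J * ρi * ((Jᴴ * (R₁ * (R₁ * J))) * ρi) * Jᴴ * R₁ := by
          simp only [hQ, Matrix.mul_assoc]
      _ = Q := by rw [hmid, h.hinv, Matrix.mul_one, hQ]
  have h1 : (1 - Q).PosSemidef := by
    have := posSemidef_conjTranspose_mul_self (1 - Q)
    rwa [conjTranspose_sub, conjTranspose_one, hQH, Matrix.sub_mul, Matrix.one_mul, Matrix.mul_sub,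
      Matrix.mul_one, hQQ, sub_self, sub_zero] at this
  have h2 := h1.conjTranspose_mul_mul_same (Y₁ * J)
  convert h2 using 1
  rw [Matrix.mul_sub, Matrix.sub_mul, Matrix.mul_one, conjTranspose_mul]
  simp only [chan, hQ, hR₁, hY₁, conjTranspose_kronecker, conjTranspose_one, Matrix.mul_assoc]
  have hm : ∀ (A B : Matrix Z Z ℂ) (K : Matrix (P × Z) I ℂ),
      ((1 : Matrix P P ℂ) ⊗ₖ A) * (((1 : Matrix P P ℂ) ⊗ₖ B) * K)
        = ((1 : Matrix P P ℂ) ⊗ₖ (A * B)) * K := fun A B K => by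
    rw [← Matrix.mul_assoc, ← mul_kronecker_mul, Matrix.one_mul]
  simp only [hm]

/-- Both Schwarz inequalities bound the cross terms of `chan J (Y * R)`. -/
theorem Data.side (h : Data J R ρ ρi D) (Y : Matrix Z Z ℂ) (x y : I → ℂ) :
    ‖qf (chan J (Y * R)) x y‖ ^ 2 ≤ (qf ρ x x).re * (qf (chan J (Y * Yᴴ)) y y).re ∧
    ‖qf (chan J (Y * R)) x y‖ ^ 2 ≤ (qf ρ y y).re * (qf (chan J (Y * Yᴴ)) x x).re := by
  have hρ := h.psd
  have hr : ∀ w : I → ℂ, ρ *ᵥ (ρi *ᵥ w) = w := fun w => by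
    rw [mulVec_mulVec, h.hinv, one_mulVec]
  have key : ∀ (N : Matrix I I ℂ) (x y : I → ℂ),
      (chan J (Y * Yᴴ) - Nᴴ * ρi * N).PosSemidef →
      ‖qf N x y‖ ^ 2 ≤ (qf ρ x x).re * (qf (chan J (Y * Yᴴ)) y y).re := by
    intro N x y hN
    have e1 : qf ρ x (ρi *ᵥ (N *ᵥ y)) = qf N x y := by
      rw [qf, qf, hr]
    have e2 : qf ρ (ρi *ᵥ (N *ᵥ y)) (ρi *ᵥ (N *ᵥ y)) = qf (Nᴴ * ρi * N) y y := by
      rw [qf, qf, hr, star_mulVec, star_mulVec, h.hi.eq]
      simp only [← dotProduct_mulVec, mulVec_mulVec, Matrix.mul_assoc]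
    have h1 := qf_cs hρ x (ρi *ᵥ (N *ᵥ y))
    rw [e1, e2] at h1
    refine h1.trans (mul_le_mul_of_nonneg_left ?_ ?_)
    · have h2 := (Complex.nonneg_iff.1 (hN.dotProduct_mulVec_nonneg y)).1
      rw [sub_mulVec, dotProduct_sub, Complex.sub_re] at h2
      simp only [qf]
      linarith
    · exact (Complex.nonneg_iff.1 (hρ.dotProduct_mulVec_nonneg x)).1
  have hMH : (chan J (Y * R))ᴴ = chan J (R * Yᴴ) := by
    rw [chan_conjTranspose, conjTranspose_mul, h.hR.eq]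
  have s1 := h.twisted Yᴴ
  have s2 := h.schwarz Yᴴ
  rw [conjTranspose_conjTranspose, ← hMH] at s1 s2
  refine ⟨key _ x y s1, ?_⟩
  have h3 := key (chan J (Y * R))ᴴ y x (by rwa [conjTranspose_conjTranspose])
  have e3 : qf (chan J (Y * R))ᴴ y x = star (qf (chan J (Y * R)) x y) := by
    rw [qf, qf, ← star_dotProduct (chan J (Y * R) *ᵥ y) x, star_mulVec, ← dotProduct_mulVec]
  rwa [e3, norm_star] at h3

/-- The arithmetic of the pair lemma. -/
theorem tau_le {τ U V p m₁ m₂ Bu Bv : ℝ} (hτ : 0 ≤ τ) (hU : 0 ≤ U) (hV : 0 ≤ V)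
    (hp : U + V = 4 * p) (hm₁ : 0 ≤ m₁) (hm₂ : 0 ≤ m₂) (hs : 4 * τ ≤ m₁ + m₂)
    (hB : Bu + Bv ≤ 4 * τ) (a₁ : m₁ ^ 2 ≤ U * Bv) (b₁ : m₁ ^ 2 ≤ V * Bu)
    (a₂ : m₂ ^ 2 ≤ U * Bv) (b₂ : m₂ ^ 2 ≤ V * Bu) : τ * (4 * p) ≤ U * V := by
  rcases hτ.eq_or_lt with h0 | h0
  · rw [← h0, zero_mul]
    exact mul_nonneg hU hV
  have hboth : ∀ m : ℝ, m ≤ U * Bv → m ≤ V * Bu → m * (U + V) ≤ U * V * (4 * τ) := by
    intro m h1 h2
    nlinarith [mul_le_mul_of_nonneg_right h1 hV, mul_le_mul_of_nonneg_right h2 hU,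
      mul_le_mul_of_nonneg_left hB (mul_nonneg hU hV)]
  have h16 : (4 * τ) ^ 2 ≤ 2 * m₁ ^ 2 + 2 * m₂ ^ 2 := by
    nlinarith [sq_nonneg (m₁ - m₂), pow_le_pow_left₀ (by linarith) hs 2]
  have h17 : (4 * τ) ^ 2 * (U + V) ≤ 4 * (U * V) * (4 * τ) := by
    nlinarith [mul_le_mul_of_nonneg_right h16 (add_nonneg hU hV), hboth _ a₁ b₁, hboth _ a₂ b₂]
  rw [hp] at h17
  by_contra hc
  nlinarith [mul_lt_mul_of_pos_left (lt_of_not_ge hc) h0]

/-- The pair lemma when the two weights agree and the overlap is real. -/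
theorem Data.pair_core (h : Data J R ρ ρi D) (ψ φ : I → ℂ) (p f e : ℝ) (hp : 0 < p) (he : 0 < e)
    (hψ : (qf ρ ψ ψ).re = p) (hφ : (qf ρ φ φ).re = p) (hf : qf ρ ψ φ = (f : ℂ)) :
    ∃ X : Matrix Z Z ℂ, X.IsHermitian ∧
      (fromBlocks (dual J (vecMulVec ψ (star ψ)) + (e : ℂ) • 1) X X
        (dual J (vecMulVec φ (star φ)) + (e : ℂ) • 1)).PosSemidef ∧
      f ^ 2 ≤ p * (R * R * X).trace.re := by
  set a := dual J (vecMulVec ψ (star ψ)) with ha
  set d := dual J (vecMulVec φ (star φ)) with hd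
  have hap : a.PosSemidef := dual_psd J (posSemidef_vecMulVec_self_star ψ)
  have hdp : d.PosSemidef := dual_psd J (posSemidef_vecMulVec_self_star φ)
  set P₀ : Matrix Z Z ℂ := (2⁻¹ : ℂ) • (a + d) + (e : ℂ) • 1 with hP₀
  set C : Matrix Z Z ℂ := (2⁻¹ : ℂ) • (a - d) with hC
  have hPd : P₀.PosDef := by
    have h1 : ((2⁻¹ : ℂ) • (a + d)).PosSemidef := by
      simpa using psd_smul (hap.add hdp) (c := 2⁻¹) (by norm_num)
    have h2 : ((e : ℂ) • (1 : Matrix Z Z ℂ)).PosDef :=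
      PosDef.one.smul (Complex.zero_lt_real.2 he)
    exact PosDef.posSemidef_add h1 h2
  have hCH : C.IsHermitian := by
    rw [IsHermitian, hC, conjTranspose_smul, conjTranspose_sub, hap.1.eq, hdp.1.eq]
    simp
  have := hPd.isUnit.invertible
  have hdet : IsUnit P₀.det := (isUnit_iff_isUnit_det P₀).1 hPd.isUnit
  set Q : Matrix Z Z ℂ := C * P₀⁻¹ * C with hQ
  have hQp : Q.PosSemidef := by
    have := hPd.inv.posSemidef.conjTranspose_mul_mul_same C
    rwa [hCH.eq] at this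
  have hplus : P₀ + C = a + (e : ℂ) • 1 := by rw [hP₀, hC]; module
  have hminus : P₀ - C = d + (e : ℂ) • 1 := by rw [hP₀, hC]; module
  have he1 : ((e : ℂ) • (1 : Matrix Z Z ℂ)).PosSemidef := psd_smul PosSemidef.one he.le
  -- the block
  have hPQ : (P₀ - Q).PosSemidef := by
    have h0 : (fromBlocks P₀ C Cᴴ P₀).PosSemidef := by
      have h1 := psd_smul
        ((diag_psd (hap.add he1) (hdp.add he1)).conjTranspose_mul_mul_same had)
        (c := 1 / 2) (by norm_num)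
      convert h1 using 1
      rw [had_conj, fromBlocks_smul, hCH.eq, ← hplus, ← hminus]
      push_cast
      congr 1 <;> module
    have := (PosDef.fromBlocks₁₁ C P₀ hPd).1 h0
    rwa [hCH.eq, ← hQ] at this
  have hK : (fromBlocks P₀ C Cᴴ Q).PosSemidef :=
    (PosDef.fromBlocks₁₁ C Q hPd).2 (by rw [hCH.eq, ← hQ, sub_self]; exact PosSemidef.zero)
  refine ⟨P₀ - Q, hPd.1.sub hQp.1, ?_, ?_⟩
  · have h1 := psd_smul
      ((hK.add (diag_psd hPQ (PosSemidef.zero (n := Z)))).conjTranspose_mul_mul_same had)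
      (c := 1 / 2) (by norm_num)
    convert h1 using 1
    rw [fromBlocks_add, had_conj, fromBlocks_smul, hCH.eq, ← hplus, ← hminus]
    push_cast
    congr 1 <;> module
  -- the trace
  set u := ψ + φ with hu
  set v := ψ - φ with hv
  set Y := P₀⁻¹ * C * R with hY
  set τ := (R * R * Q).trace.re with hτ
  have hYH : Yᴴ = R * C * P₀⁻¹ := by
    rw [hY, conjTranspose_mul, conjTranspose_mul, h.hR.eq, hCH.eq, hPd.inv.1.eq,
      ← Matrix.mul_assoc]
  have huv : vecMulVec u (star v) + vecMulVec v (star u)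
      = (2 : ℂ) • (vecMulVec ψ (star ψ) - vecMulVec φ (star φ)) := by
    ext i j
    simp [hu, hv, vecMulVec_apply]
    ring
  have huu : vecMulVec u (star u) + vecMulVec v (star v)
      = (2 : ℂ) • (vecMulVec ψ (star ψ) + vecMulVec φ (star φ)) := by
    ext i j
    simp [hu, hv, vecMulVec_apply]
    ring
  set M := chan J (Y * R) with hM
  have hm : qf M v u + qf M u v = 4 * (R * R * Q).trace := by
    rw [qf_chan, qf_chan, ← trace_add, ← Matrix.mul_add, ← dual_add, huv, dual_smul, dual_sub,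
      ← ha, ← hd]
    have h4 : (2 : ℂ) • (a - d) = (4 : ℂ) • C := by rw [hC]; module
    rw [h4, Matrix.mul_smul, trace_smul, smul_eq_mul, hQ, hY]
    rw [trace_mul_comm (R * R)]
    congr 1
    calc (P₀⁻¹ * C * R * R * C).trace = (C * (P₀⁻¹ * C * R * R)).trace := trace_mul_comm _ _
      _ = _ := by simp only [Matrix.mul_assoc]
  have hB : (qf (chan J (Y * Yᴴ)) u u).re + (qf (chan J (Y * Yᴴ)) v v).re ≤ 4 * τ := by
    rw [← Complex.add_re, qf_chan, qf_chan, ← trace_add, ← Matrix.mul_add, ← dual_add, huu,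
      dual_smul, dual_add, ← ha, ← hd]
    have h4 : (2 : ℂ) • (a + d) = (4 : ℂ) • P₀ - (4 * e : ℂ) • (1 : Matrix Z Z ℂ) := by
      rw [hP₀]; module
    have hYP : (Y * Yᴴ * P₀).trace = (R * R * Q).trace := by
      rw [hYH, hY]
      simp only [Matrix.mul_assoc]
      rw [Matrix.nonsing_inv_mul P₀ hdet, Matrix.mul_one, hQ]
      calc (P₀⁻¹ * (C * (R * (R * C)))).trace = ((R * (R * C)) * (P₀⁻¹ * C)).trace := by
            rw [← Matrix.mul_assoc P₀⁻¹ C, trace_mul_comm]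
        _ = _ := by simp only [Matrix.mul_assoc]
    rw [h4, Matrix.mul_sub, Matrix.mul_smul, Matrix.mul_smul, Matrix.mul_one, trace_sub,
      trace_smul, trace_smul, hYP]
    have hnn := (Complex.nonneg_iff.1 (posSemidef_self_mul_conjTranspose Y).trace_nonneg).1
    simp [← hτ]
    nlinarith
  set Bu := (qf (chan J (Y * Yᴴ)) u u).re with hBu
  set Bv := (qf (chan J (Y * Yᴴ)) v v).re with hBv
  have hρ := h.psd
  have side : ∀ x y : I → ℂ,
      ‖qf M x y‖ ^ 2 ≤ (qf ρ x x).re * (qf (chan J (Y * Yᴴ)) y y).re ∧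
      ‖qf M x y‖ ^ 2 ≤ (qf ρ y y).re * (qf (chan J (Y * Yᴴ)) x x).re := h.side Y
  have hφψ : qf ρ φ ψ = (f : ℂ) := by rw [qf_swap hρ.1, hf]; simp
  have hadd : ∀ s : ℂ, qf ρ (ψ + s • φ) (ψ + s • φ)
      = qf ρ ψ ψ + s * qf ρ ψ φ + star s * qf ρ φ ψ + star s * s * qf ρ φ φ := by
    intro s
    simp only [qf, mulVec_add, mulVec_smul, star_add, star_smul, dotProduct_add, add_dotProduct,
      smul_dotProduct, dotProduct_smul, smul_eq_mul]
    ring
  have hU : (qf ρ u u).re = 2 * p + 2 * f := by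
    have := congrArg Complex.re (hadd 1)
    rw [one_smul, hf, hφψ] at this
    simp [hψ, hφ] at this
    rw [hu, this]
    ring
  have hV : (qf ρ v v).re = 2 * p - 2 * f := by
    have := congrArg Complex.re (hadd (-1))
    rw [neg_one_smul, ← sub_eq_add_neg, hf, hφψ] at this
    simp [hψ, hφ] at this
    rw [hv, this]
    ring
  obtain ⟨m1v, m1u⟩ := side v u
  obtain ⟨m2u, m2v⟩ := side u v
  rw [hV, ← hBu] at m1v m2v
  rw [hU, ← hBv] at m1u m2u
  have hsum : 4 * τ ≤ ‖qf M v u‖ + ‖qf M u v‖ := by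
    have := congrArg Complex.re hm
    simp [← hτ] at this
    linarith [Complex.re_le_norm (qf M v u), Complex.re_le_norm (qf M u v)]
  set U := 2 * p + 2 * f with hU'
  set V := 2 * p - 2 * f with hV'
  have hU0 : 0 ≤ U := hU ▸ (Complex.nonneg_iff.1 (hρ.dotProduct_mulVec_nonneg u)).1
  have hV0 : 0 ≤ V := hV ▸ (Complex.nonneg_iff.1 (hρ.dotProduct_mulVec_nonneg v)).1
  have hτ0 : 0 ≤ τ := trace_mul_nonneg (sq_psd h.hR) hQp
  have hτle : τ * (4 * p) ≤ U * V :=
    tau_le hτ0 hU0 hV0 (by rw [hU', hV']; ring) (norm_nonneg _) (norm_nonneg _) hsum hB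
      m1u m1v m2u m2v
  have hsig : 0 ≤ (R * R).trace.re :=
    (Complex.nonneg_iff.1 (sq_psd h.hR).trace_nonneg).1
  have hP : p ≤ (R * R * P₀).trace.re := by
    have e1 : (R * R * a).trace = qf ρ ψ ψ := by rw [ha, ← qf_chan, h.heq]
    have e2 : (R * R * d).trace = qf ρ φ φ := by rw [hd, ← qf_chan, h.heq]
    rw [hP₀]
    simp [Matrix.mul_add, Matrix.mul_smul, trace_add, e1, e2, hψ, hφ]
    nlinarith
  rw [Matrix.mul_sub, trace_sub, Complex.sub_re, ← hτ]
  nlinarith [mul_le_mul_of_nonneg_left hP hp.le]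

/-- Each pair of vectors has an operator under its block carrying the squared overlap. -/
theorem Data.pair (h : Data J R ρ ρi D) (ψ φ : I → ℂ) {e : ℝ} (he : 0 < e) :
    ∃ X : Matrix Z Z ℂ, X.IsHermitian ∧
      (fromBlocks (dual J (vecMulVec ψ (star ψ)) + (e : ℂ) • 1) X X
        (dual J (vecMulVec φ (star φ)) + (e : ℂ) • 1)).PosSemidef ∧
      0 ≤ (R * R * X).trace.re ∧
      ‖qf ρ ψ φ‖ ^ 2
        ≤ Real.sqrt ((qf ρ ψ ψ).re * (qf ρ φ φ).re) * (R * R * X).trace.re := by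
  have hρ := h.psd
  have he1 : ((e : ℂ) • (1 : Matrix Z Z ℂ)).PosSemidef := psd_smul PosSemidef.one he.le
  set p := (qf ρ ψ ψ).re with hp'
  set q := (qf ρ φ φ).re with hq'
  have hp : 0 ≤ p := (Complex.nonneg_iff.1 (hρ.dotProduct_mulVec_nonneg ψ)).1
  have hq : 0 ≤ q := (Complex.nonneg_iff.1 (hρ.dotProduct_mulVec_nonneg φ)).1
  rcases eq_or_ne (p * q) 0 with h0 | h0
  · refine ⟨0, isHermitian_zero, ?_, by simp, ?_⟩
    · exact diag_psd ((dual_psd J (posSemidef_vecMulVec_self_star ψ)).add he1)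
        ((dual_psd J (posSemidef_vecMulVec_self_star φ)).add he1)
    · have := qf_cs hρ ψ φ
      rw [← hp', ← hq', h0] at this
      simpa using this
  have hp0 : 0 < p := hp.lt_of_ne (by rintro hh; exact h0 (by simp [← hh]))
  have hq0 : 0 < q := hq.lt_of_ne (by rintro hh; exact h0 (by simp [← hh]))
  obtain ⟨z, hz, hzw⟩ : ∃ z : ℂ, ‖z‖ = 1 ∧ z * qf ρ ψ φ = (‖qf ρ ψ φ‖ : ℂ) := by
    rcases eq_or_ne (qf ρ ψ φ) 0 with hw | hw
    · exact ⟨1, by simp, by simp [hw]⟩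
    · refine ⟨(‖qf ρ ψ φ‖ : ℂ) / qf ρ ψ φ, ?_, by field_simp⟩
      simp [hw]
  set t := Real.sqrt (p / q) with ht
  have ht0 : 0 < t := Real.sqrt_pos.2 (div_pos hp0 hq0)
  have ht2 : t ^ 2 = p / q := Real.sq_sqrt (by positivity)
  set c : ℂ := (t : ℂ) * z with hc
  have hcc : c * star c = ((t ^ 2 : ℝ) : ℂ) := by
    have hzz : z * star z = 1 := by
      rw [Complex.star_def, Complex.mul_conj', hz]; simp
    simp [hc] at hzz ⊢
    linear_combination ((t : ℂ) ^ 2) * hzz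
  set e' := e * min 1 (t ^ 2) with he'
  have he'0 : 0 < e' := mul_pos he (lt_min one_pos (by positivity))
  obtain ⟨X, hXH, hblock, hX⟩ := h.pair_core ψ (c • φ) p (t * ‖qf ρ ψ φ‖) e' hp0 he'0 rfl
    (by
      have : qf ρ (c • φ) (c • φ) = (c * star c) * qf ρ φ φ := by
        simp [qf, mulVec_smul, star_smul, smul_eq_mul]; ring
      rw [this, hcc, Complex.re_ofReal_mul, ← hq', ht2]
      field_simp)
    (by
      have : qf ρ ψ (c • φ) = c * qf ρ ψ φ := by simp [qf, mulVec_smul]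
      rw [this, hc, mul_assoc, hzw]; simp)
  have hv : vecMulVec (c • φ) (star (c • φ)) = ((t ^ 2 : ℝ) : ℂ) • vecMulVec φ (star φ) := by
    rw [← hcc]
    ext i j
    simp [vecMulVec_apply]
    ring
  rw [hv, dual_smul] at hblock
  set x := (R * R * X).trace.re with hx
  have hx0 : 0 ≤ x := by
    by_contra hc'
    nlinarith [sq_nonneg (t * ‖qf ρ ψ φ‖), mul_neg_of_pos_of_neg hp0 (lt_of_not_ge hc')]
  refine ⟨((t⁻¹ : ℝ) : ℂ) • X, ?_, ?_, ?_, ?_⟩
  · rw [IsHermitian, conjTranspose_smul, hXH.eq]; simp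
  · have hle1 : e' ≤ e := by
      simpa [he'] using mul_le_mul_of_nonneg_left (min_le_left 1 (t ^ 2)) he.le
    have hle2 : t⁻¹ * t⁻¹ * e' ≤ e := by
      rw [show t⁻¹ * t⁻¹ * e' = e' / t ^ 2 by field_simp, div_le_iff₀ (by positivity), he']
      exact mul_le_mul_of_nonneg_left (min_le_right _ _) he.le
    have h1 := block_conj (U := 1) (V := ((t⁻¹ : ℝ) : ℂ) • (1 : Matrix Z Z ℂ)) hblock
    have h2 := h1.add (diag_psd (psd_smul (PosSemidef.one (n := Z)) (sub_nonneg.2 hle1))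
      (psd_smul (PosSemidef.one (n := Z)) (sub_nonneg.2 hle2)))
    convert h2 using 1
    simp only [fromBlocks_add, conjTranspose_one, conjTranspose_smul, Matrix.one_mul,
      Matrix.mul_one, Matrix.smul_mul, Matrix.mul_smul, add_zero, Complex.star_def,
      Complex.conj_ofReal, smul_add, smul_smul]
    congr 1
    · push_cast; module
    · push_cast
      have ht' : (t : ℂ) ≠ 0 := by exact_mod_cast ht0.ne'
      match_scalars <;> field_simp <;> ring
  · simp [Matrix.mul_smul, trace_smul, ← hx]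
    positivity
  · simp [Matrix.mul_smul, trace_smul, ← hx]
    have hs : Real.sqrt (p * q) = p / t := by
      rw [Real.sqrt_eq_iff_eq_sq (by positivity) (by positivity), div_pow, ht2]
      field_simp
    rw [hs]
    have e1 : p / t * (t⁻¹ * x) = p * x / t ^ 2 := by field_simp
    rw [e1, le_div_iff₀ (by positivity)]
    linarith [hX, mul_pow t ‖qf ρ ψ φ‖ 2]

end chan

end Vale.Agent.P372.Stack
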