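import Vale.Agent.P372.Zero.Stack.Pair

/-!
A certificate on stacked maps passes to copies.
-/

noncomputable section

open Matrix Finset
open scoped ComplexOrder Kronecker MatrixOrder

namespace Vale.Agent.P372.Stack

section copies
variable {n : ℕ}

/-- The tensor product of `n` matrices, read through two reindexings. -/
def tp {E F E' F' : Type} (e : E' ≃ (Fin n → E)) (f : F' ≃ (Fin n → F))
    (X : Fin n → Matrix E F ℂ) : Matrix E' F' ℂ :=
  (piMat X).submatrix e f

theorem tp_mul {E F G E' F' G' : Type} [Fintype F] [Fintype F'] (e : E' ≃ (Fin n → E))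
    (f : F' ≃ (Fin n → F)) (g : G' ≃ (Fin n → G)) (X : Fin n → Matrix E F ℂ)
    (Y : Fin n → Matrix F G ℂ) : tp e f X * tp f g Y = tp e g fun t => X t * Y t := by
  rw [tp, tp, tp, submatrix_mul_equiv, piMat_mul]

theorem tp_conjTranspose {E F E' F' : Type} (e : E' ≃ (Fin n → E)) (f : F' ≃ (Fin n → F))
    (X : Fin n → Matrix E F ℂ) : (tp e f X)ᴴ = tp f e fun t => (X t)ᴴ := by
  rw [tp, tp, conjTranspose_submatrix, piMat_conjTranspose]

theorem tp_one {E E' : Type} [DecidableEq E] [DecidableEq E'] (e : E' ≃ (Fin n → E)) :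
    tp e e (fun _ => (1 : Matrix E E ℂ)) = 1 := by
  rw [tp, piMat_one, submatrix_one_equiv]

theorem tp_herm {E E' : Type} (e : E' ≃ (Fin n → E)) {X : Matrix E E ℂ} (h : X.IsHermitian) :
    (tp e e fun _ => X).IsHermitian := by
  rw [IsHermitian, tp_conjTranspose, h.eq]

theorem tp_one_sub {E E' : Type} [Fintype E] [DecidableEq E] [DecidableEq E']
    (e : E' ≃ (Fin n → E)) {X : Matrix E E ℂ} (h0 : X.PosSemidef) (h1 : (1 - X).PosSemidef) :
    (1 - tp e e fun _ => X).PosSemidef := by
  have key : ((1 : Matrix (Fin n → E) (Fin n → E) ℂ) - piMat fun _ => X).PosSemidef := by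
    have hs := piMat_sum (I := Fin n) (J := fun _ => Bool)
      fun (_ : Fin n) (b : Bool) => if b then X else 1 - X
    simp only [Fintype.sum_bool, if_true, Bool.false_eq_true, if_false, add_sub_cancel,
      piMat_one] at hs
    rw [hs, ← Finset.add_sum_erase Finset.univ _ (Finset.mem_univ (fun _ : Fin n => true))]
    simp only [if_true, add_sub_cancel_left]
    refine sum_psd _ fun f _ => piMat_posSemidef fun t => ?_
    split_ifs
    · exact h0
    · exact h1
  have h2 := key.submatrix e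
  rw [submatrix_sub, Pi.sub_apply, Pi.sub_apply, submatrix_one_equiv] at h2
  exact h2

/-- Pairs of tuples as tuples of pairs. -/
def pairs (α β : Type) (n : ℕ) : (Fin n → α) × (Fin n → β) ≃ (Fin n → α × β) :=
  (Equiv.arrowProdEquivProdArrow (Fin n) (fun _ => α) (fun _ => β)).symm

/-- The rows of the copies of a product map. -/
def rows (PA PB ZA ZB : Type) (n : ℕ) :
    ((Fin n → PA) × (Fin n → PB)) × ((Fin n → ZA) × (Fin n → ZB))
      ≃ (Fin n → (PA × PB) × (ZA × ZB)) :=
  ((pairs PA PB n).prodCongr (pairs ZA ZB n)).trans (pairs (PA × PB) (ZA × ZB) n)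

variable {A B PA PB ZA ZB : Type} [Fintype A] [DecidableEq A] [Fintype B] [DecidableEq B]
  [Fintype PA] [DecidableEq PA] [Fintype PB] [DecidableEq PB] [Fintype ZA] [DecidableEq ZA]
  [Fintype ZB] [DecidableEq ZB]

/-- Copies of a stacked Kraus map. -/
def powJ {A P Z : Type} (J : Matrix (P × Z) A ℂ) (n : ℕ) :
    Matrix ((Fin n → P) × (Fin n → Z)) (Fin n → A) ℂ :=
  tp (pairs P Z n) (Equiv.refl _) fun _ => J

omit [Fintype A] [DecidableEq A] [Fintype B] [DecidableEq B] [Fintype PA] [DecidableEq PA]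
  [Fintype PB] [DecidableEq PB] [Fintype ZA] [DecidableEq ZA] [Fintype ZB] [DecidableEq ZB] in
theorem kJ_pow (JA : Matrix (PA × ZA) A ℂ) (JB : Matrix (PB × ZB) B ℂ) :
    kJ (powJ JA n) (powJ JB n) = tp (rows PA PB ZA ZB n) (pairs A B n) fun _ => kJ JA JB := by
  ext i j
  exact (Finset.prod_mul_distrib (s := (Finset.univ : Finset (Fin n)))
    (f := fun t => JA (i.1.1 t, i.2.1 t) (j.1 t)) (g := fun t => JB (i.1.2 t, i.2.2 t) (j.2 t))).symm

omit [Fintype A] [DecidableEq A] [Fintype B] [DecidableEq B] [Fintype PA] [Fintype PB]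
  [Fintype ZA] [DecidableEq ZA] [Fintype ZB] [DecidableEq ZB] in
theorem one_kron_tp (X : Fin n → Matrix (ZA × ZB) (ZA × ZB) ℂ) :
    (1 : Matrix ((Fin n → PA) × (Fin n → PB)) ((Fin n → PA) × (Fin n → PB)) ℂ)
        ⊗ₖ tp (pairs ZA ZB n) (pairs ZA ZB n) X
      = tp (rows PA PB ZA ZB n) (rows PA PB ZA ZB n) fun t => 1 ⊗ₖ X t := by
  rw [← tp_one (pairs PA PB n)]
  ext i j
  exact (Finset.prod_mul_distrib (s := (Finset.univ : Finset (Fin n)))
    (f := fun t => (1 : Matrix (PA × PB) (PA × PB) ℂ) (pairs PA PB n i.1 t) (pairs PA PB n j.1 t))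
    (g := fun t => X t (pairs ZA ZB n i.2 t) (pairs ZA ZB n j.2 t))).symm

omit [Fintype A] [DecidableEq A] [Fintype B] [DecidableEq B] [DecidableEq ZA] [DecidableEq ZB] in
theorem chan_pow (JA : Matrix (PA × ZA) A ℂ) (JB : Matrix (PB × ZB) B ℂ)
    (X : Fin n → Matrix (ZA × ZB) (ZA × ZB) ℂ) :
    chan (kJ (powJ JA n) (powJ JB n)) (tp (pairs ZA ZB n) (pairs ZA ZB n) X)
      = tp (pairs A B n) (pairs A B n) fun t => chan (kJ JA JB) (X t) := by
  rw [chan, kJ_pow, one_kron_tp, tp_conjTranspose, tp_mul, tp_mul]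
  rfl

omit [Fintype A] [DecidableEq A] [Fintype B] [DecidableEq B] in
theorem copiesState_eq (ρ : Matrix (A × B) (A × B) ℂ) :
    copiesState ρ n = tp (pairs A B n) (pairs A B n) fun _ => ρ := rfl

/-- All the data pass to copies. -/
theorem Data.pow {JA : Matrix (PA × ZA) A ℂ} {JB : Matrix (PB × ZB) B ℂ}
    {R : Matrix (ZA × ZB) (ZA × ZB) ℂ} {ρ ρi : Matrix (A × B) (A × B) ℂ}
    {D : Matrix ((PA × PB) × (ZA × ZB)) ((PA × PB) × (ZA × ZB)) ℂ}
    (h : Data (kJ JA JB) R ρ ρi D) :
    Data (kJ (powJ JA n) (powJ JB n)) (tp (pairs ZA ZB n) (pairs ZA ZB n) fun _ => R)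
      (copiesState ρ n) (tp (pairs A B n) (pairs A B n) fun _ => ρi)
      (tp (rows PA PB ZA ZB n) (rows PA PB ZA ZB n) fun _ => D) where
  hR := tp_herm _ h.hR
  heq := by
    rw [tp_mul, chan_pow, h.heq, copiesState_eq]
  hinv := by
    rw [copiesState_eq, tp_mul, h.hinv, tp_one]
  hi := tp_herm _ h.hi
  hD := tp_herm _ h.hD
  hD1 := by
    rw [tp_mul]
    exact tp_one_sub _ (sq_psd h.hD) h.hD1
  cert := by
    intro V W
    induction V using Matrix.induction_on' with
    | h_zero => simp [chan, kronecker_zero]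
    | h_add p q hp hq =>
      simp only [conjTranspose_add, Matrix.add_mul, Matrix.mul_add, chan_add, kronecker_add] at hp hq ⊢
      rw [hp, hq]
    | h_std_basis a b x =>
      induction W using Matrix.induction_on' with
      | h_zero => simp [chan, kronecker_zero]
      | h_add p q hp hq =>
        simp only [Matrix.add_mul, Matrix.mul_add, chan_add, kronecker_add] at hp hq ⊢
        rw [hp, hq]
      | h_std_basis c d y =>
        have hs : ∀ (a b : (Fin n → ZA) × (Fin n → ZB)) (x : ℂ),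
            Matrix.single a b x = x • tp (pairs ZA ZB n) (pairs ZA ZB n)
              fun t => Matrix.single (pairs ZA ZB n a t) (pairs ZA ZB n b t) 1 := by
          intro a b x
          ext i j
          simp only [tp, piMat, Matrix.single_apply, Matrix.smul_apply, submatrix_apply,
            Matrix.of_apply, Fintype.prod_boole]
          simp [forall_and, ← funext_iff]
        rw [hs a b x, hs c d y]
        simp only [conjTranspose_smul, Matrix.mul_smul, Matrix.smul_mul, chan_smul, smul_smul,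
          kronecker_smul]
        rw [tp_conjTranspose, tp_mul, tp_mul, chan_pow, chan_pow, tp_mul, tp_mul, kJ_pow,
          one_kron_tp, one_kron_tp, tp_conjTranspose, tp_mul, tp_mul, tp_mul, tp_mul]
        simp only [h.cert, mul_comm (star x) y]

end copies

end Vale.Agent.P372.Stack
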