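import Vale.Agent.P372.Zero.Stack.Pair

/-!
The inequality of the local test from a certificate, for one system.
-/

noncomputable section

open Matrix Finset
open scoped ComplexOrder Kronecker MatrixOrder

namespace Vale.Agent.P372.Stack

section geo
variable {A B : Type} [Fintype A] [DecidableEq A] [Fintype B] [DecidableEq B]

omit [Fintype A] [DecidableEq A] [Fintype B] [DecidableEq B] in
theorem kron_herm {X : Matrix A A ℂ} {Y : Matrix B B ℂ} (hX : X.IsHermitian)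
    (hY : Y.IsHermitian) : (X ⊗ₖ Y).IsHermitian := by
  rw [IsHermitian, conjTranspose_kronecker, hX.eq, hY.eq]

/-- An operator under the block of two products is at most the product of the geometric means. -/
theorem geo {α₀ α₁ : Matrix A A ℂ} {β₀ β₁ : Matrix B B ℂ} {R X : Matrix (A × B) (A × B) ℂ}
    (hα₀ : α₀.PosDef) (hβ₀ : β₀.PosDef) (hα₁ : α₁.PosSemidef) (hβ₁ : β₁.PosSemidef)
    (hR : R.IsHermitian) (hX : X.IsHermitian)
    (h : (fromBlocks (α₀ ⊗ₖ β₀) X X (α₁ ⊗ₖ β₁)).PosSemidef)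
    (hx : 0 ≤ (R * R * X).trace.re) :
    (R * R * X).trace.re ^ 2
      ≤ (R * R * (α₀ ⊗ₖ β₁)).trace.re * (R * R * (α₁ ⊗ₖ β₀)).trace.re := by
  set sA := CFC.sqrt α₀ with hsA
  set sB := CFC.sqrt β₀ with hsB
  have hAA : sA * sA = α₀ := CFC.sqrt_mul_sqrt_self α₀ hα₀.posSemidef.nonneg
  have hBB : sB * sB = β₀ := CFC.sqrt_mul_sqrt_self β₀ hβ₀.posSemidef.nonneg
  have sAH : sA.IsHermitian := (CFC.sqrt_nonneg α₀).posSemidef.1
  have sBH : sB.IsHermitian := (CFC.sqrt_nonneg β₀).posSemidef.1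
  have uA : IsUnit sA.det := by
    have hu := (isUnit_iff_isUnit_det α₀).1 hα₀.isUnit
    rw [← hAA, det_mul] at hu
    exact isUnit_of_mul_isUnit_left hu
  have uB : IsUnit sB.det := by
    have hu := (isUnit_iff_isUnit_det β₀).1 hβ₀.isUnit
    rw [← hBB, det_mul] at hu
    exact isUnit_of_mul_isUnit_left hu
  have a1 : sA⁻¹ * sA = 1 := nonsing_inv_mul _ uA
  have a2 : sA * sA⁻¹ = 1 := mul_nonsing_inv _ uA
  have b1 : sB⁻¹ * sB = 1 := nonsing_inv_mul _ uB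
  have b2 : sB * sB⁻¹ = 1 := mul_nonsing_inv _ uB
  have iAH : (sA⁻¹).IsHermitian := sAH.inv
  have iBH : (sB⁻¹).IsHermitian := sBH.inv
  set A₁ := sA⁻¹ * α₁ * sA⁻¹ with hA₁
  set B₁ := sB⁻¹ * β₁ * sB⁻¹ with hB₁
  have hA₁p : A₁.PosSemidef := by
    have := hα₁.conjTranspose_mul_mul_same sA⁻¹
    rwa [iAH.eq] at this
  have hB₁p : B₁.PosSemidef := by
    have := hβ₁.conjTranspose_mul_mul_same sB⁻¹
    rwa [iBH.eq] at this
  set K := sA ⊗ₖ sB with hK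
  set iK := sA⁻¹ ⊗ₖ sB⁻¹ with hiK
  have iKH : iKᴴ = iK := kron_herm iAH iBH
  have hKH : Kᴴ = K := kron_herm sAH sBH
  have k1 : iK * K = 1 := by rw [hiK, hK, ← mul_kronecker_mul, a1, b1, one_kronecker_one]
  have k2 : K * iK = 1 := by rw [hiK, hK, ← mul_kronecker_mul, a2, b2, one_kronecker_one]
  set X' := iK * X * iK with hX'
  have hX'H : X'.IsHermitian := by
    rw [IsHermitian, hX', conjTranspose_mul, conjTranspose_mul, iKH, hX.eq, Matrix.mul_assoc]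
  have e1 : iK * (α₀ ⊗ₖ β₀) * iK = 1 := by
    rw [← hAA, ← hBB, mul_kronecker_mul, ← hK, ← Matrix.mul_assoc, k1, Matrix.one_mul, k2]
  have e2 : iK * (α₁ ⊗ₖ β₁) * iK = A₁ ⊗ₖ B₁ := by
    rw [hiK, ← mul_kronecker_mul, ← mul_kronecker_mul]
  set S := CFC.sqrt A₁ ⊗ₖ CFC.sqrt B₁ with hS
  have hSp : S.PosSemidef :=
    (CFC.sqrt_nonneg A₁).posSemidef.kronecker (CFC.sqrt_nonneg B₁).posSemidef
  have hSS : S * S = A₁ ⊗ₖ B₁ := by
    rw [hS, ← mul_kronecker_mul, CFC.sqrt_mul_sqrt_self A₁ hA₁p.nonneg,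
      CFC.sqrt_mul_sqrt_self B₁ hB₁p.nonneg]
  have hle : (S - X').PosSemidef := by
    refine le_of_sq_le hX'H hSp ?_
    have h1 := block_conj (U := iK) (V := iK) h
    rw [iKH, e1, e2] at h1
    have h2 : (fromBlocks 1 X' X'ᴴ (A₁ ⊗ₖ B₁)).PosSemidef := by rwa [hX'H.eq]
    have hone : (1 : Matrix (A × B) (A × B) ℂ).PosDef := PosDef.one
    have := hone.isUnit.invertible
    have h3 := (PosDef.fromBlocks₁₁ X' (A₁ ⊗ₖ B₁) hone).1 h2
    rwa [hX'H.eq, inv_one, Matrix.mul_one, ← hSS] at h3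
  set N := K * (R * R) * K with hN
  have hNp : N.PosSemidef := by
    have := (sq_psd hR).conjTranspose_mul_mul_same K
    rwa [hKH] at this
  have t1 : ∀ M, (N * M).trace = (R * R * (K * M * K)).trace := fun M => by
    rw [hN, Matrix.mul_assoc K, Matrix.mul_assoc K, trace_mul_comm]
    simp only [Matrix.mul_assoc]
  have hxy : (R * R * X).trace.re ≤ (N * S).trace.re := by
    have h0 := trace_mul_nonneg hNp hle
    have hKX : K * X' * K = X := by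
      rw [hX', ← Matrix.mul_assoc K, ← Matrix.mul_assoc K, k2, Matrix.one_mul, Matrix.mul_assoc,
        k1, Matrix.mul_one]
    rw [Matrix.mul_sub, trace_sub, Complex.sub_re, t1 X', hKX] at h0
    linarith
  set s := CFC.sqrt A₁ ⊗ₖ (1 : Matrix B B ℂ) with hs
  set r := (1 : Matrix A A ℂ) ⊗ₖ CFC.sqrt B₁ with hr
  have hsr : s * r = S := by
    rw [hs, hr, ← mul_kronecker_mul, Matrix.one_mul, Matrix.mul_one]
  have hrs : r * s = S := by
    rw [hs, hr, ← mul_kronecker_mul, Matrix.one_mul, Matrix.mul_one]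
  have hcs := commute_cs hNp (s := s) (r := r)
    (kron_herm (CFC.sqrt_nonneg A₁).posSemidef.1 isHermitian_one)
    (kron_herm isHermitian_one (CFC.sqrt_nonneg B₁).posSemidef.1) (hsr.trans hrs.symm)
  rw [hsr] at hcs
  have es : K * (s * s) * K = α₁ ⊗ₖ β₀ := by
    rw [hs, ← mul_kronecker_mul, CFC.sqrt_mul_sqrt_self A₁ hA₁p.nonneg, hK, ← mul_kronecker_mul,
      ← mul_kronecker_mul, Matrix.one_mul, Matrix.mul_one, hBB, hA₁, ← Matrix.mul_assoc,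
      ← Matrix.mul_assoc, a2, Matrix.one_mul, Matrix.mul_assoc, a1, Matrix.mul_one]
  have er : K * (r * r) * K = α₀ ⊗ₖ β₁ := by
    rw [hr, ← mul_kronecker_mul, CFC.sqrt_mul_sqrt_self B₁ hB₁p.nonneg, hK, ← mul_kronecker_mul,
      ← mul_kronecker_mul, Matrix.one_mul, Matrix.mul_one, hAA, hB₁, ← Matrix.mul_assoc,
      ← Matrix.mul_assoc, b2, Matrix.one_mul, Matrix.mul_assoc, b1, Matrix.mul_one]
  rw [t1 (s * s), t1 (r * r), es, er] at hcs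
  rw [mul_comm]
  exact (pow_le_pow_left₀ hx hxy 2).trans hcs

end geo

section test
variable {A B PA PB ZA ZB : Type} [Fintype A] [DecidableEq A] [Fintype B] [DecidableEq B]
  [Fintype PA] [DecidableEq PA] [Fintype PB] [DecidableEq PB] [Fintype ZA] [DecidableEq ZA]
  [Fintype ZB] [DecidableEq ZB]

omit [DecidableEq A] [DecidableEq B] [DecidableEq PA] [DecidableEq PB] [Fintype ZA]
  [DecidableEq ZA] [Fintype ZB] [DecidableEq ZB] in
theorem dual_kJ (JA : Matrix (PA × ZA) A ℂ) (JB : Matrix (PB × ZB) B ℂ) (X : Matrix A A ℂ)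
    (Y : Matrix B B ℂ) : dual (kJ JA JB) (X ⊗ₖ Y) = dual JA X ⊗ₖ dual JB Y := by
  let σ : (PA × PB) × (ZA × ZB) → (PA × ZA) × (PB × ZB) :=
    fun i => ((i.1.1, i.2.1), (i.1.2, i.2.2))
  have h : kJ JA JB * (X ⊗ₖ Y) * (kJ JA JB)ᴴ
      = ((JA * X * JAᴴ) ⊗ₖ (JB * Y * JBᴴ)).submatrix σ σ := by
    rw [mul_kronecker_mul, mul_kronecker_mul, ← conjTranspose_kronecker]
    rfl
  ext i j
  simp only [dual, h, Matrix.sum_apply, submatrix_apply, kroneckerMap_apply, σ,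
    Fintype.sum_prod_type, Finset.sum_mul, Finset.mul_sum]
  exact Finset.sum_comm

theorem p_expand (ω : Matrix (ZA × ZB) (ZA × ZB) ℂ) (X : Matrix ZA ZA ℂ) (Y : Matrix ZB ZB ℂ)
    (δ : ℝ) :
    (ω * ((X + (δ : ℂ) • 1) ⊗ₖ (Y + (δ : ℂ) • 1))).trace.re
      = (ω * (X ⊗ₖ Y)).trace.re + δ * (ω * (X ⊗ₖ 1 + 1 ⊗ₖ Y)).trace.re
        + δ ^ 2 * ω.trace.re := by
  simp only [add_kronecker, kronecker_add, smul_kronecker, kronecker_smul, one_kronecker_one,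
    Matrix.mul_add, Matrix.mul_smul, Matrix.mul_one, trace_add, trace_smul, smul_eq_mul,
    Complex.add_re, Complex.re_ofReal_mul]
  ring

/-- Cauchy-Schwarz over a decomposition into pairs. -/
theorem sum_overlap {J : Type} [Fintype J] {F P Q : ℝ} {p q x g : J → ℝ} (hF : 0 ≤ F)
    (hFg : F ≤ ∑ i, g i) (hp : ∀ i, 0 ≤ p i) (hq : ∀ i, 0 ≤ q i) (hx : ∀ i, 0 ≤ x i)
    (h : ∀ i, g i ^ 2 ≤ Real.sqrt (p i * q i) * x i) (hP : ∑ i, p i ≤ P) (hQ : ∑ i, q i ≤ Q) :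
    F ^ 4 ≤ P * Q * (∑ i, x i) ^ 2 := by
  have hP0 : 0 ≤ P := (Finset.sum_nonneg fun i _ => hp i).trans hP
  have hQ0 : 0 ≤ Q := (Finset.sum_nonneg fun i _ => hq i).trans hQ
  have h2 : F ^ 2 ≤ Real.sqrt (P * Q) * ∑ i, x i := by
    refine (pow_le_pow_left₀ hF hFg 2).trans ?_
    refine (Finset.sum_sq_le_sum_mul_sum_of_sq_le_mul Finset.univ
      (fun i _ => Real.sqrt_nonneg _) (fun i _ => hx i) fun i _ => h i).trans ?_
    refine mul_le_mul_of_nonneg_right ?_ (Finset.sum_nonneg fun i _ => hx i)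
    calc ∑ i, Real.sqrt (p i * q i) = ∑ i, Real.sqrt (p i) * Real.sqrt (q i) :=
          Finset.sum_congr rfl fun i _ => Real.sqrt_mul (hp i) _
      _ ≤ Real.sqrt (∑ i, p i) * Real.sqrt (∑ i, q i) :=
          Real.sum_sqrt_mul_sqrt_le _ hp hq
      _ ≤ _ := by
          rw [Real.sqrt_mul hP0]
          exact mul_le_mul (Real.sqrt_le_sqrt hP) (Real.sqrt_le_sqrt hQ) (Real.sqrt_nonneg _)
            (Real.sqrt_nonneg _)
  calc F ^ 4 = (F ^ 2) ^ 2 := by ring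
    _ ≤ (Real.sqrt (P * Q) * ∑ i, x i) ^ 2 := pow_le_pow_left₀ (sq_nonneg _) h2 2
    _ = _ := by rw [mul_pow, Real.sq_sqrt (mul_nonneg hP0 hQ0)]

/-- The operator collecting the pairs of a contraction between two product maps. -/
theorem test_op {JA : Matrix (PA × ZA) A ℂ} {JB : Matrix (PB × ZB) B ℂ}
    {R : Matrix (ZA × ZB) (ZA × ZB) ℂ} {ρ ρi : Matrix (A × B) (A × B) ℂ}
    {D : Matrix ((PA × PB) × (ZA × ZB)) ((PA × PB) × (ZA × ZB)) ℂ}
    (hd : Data (kJ JA JB) R ρ ρi D) {K : Type} [Fintype K] [DecidableEq K]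
    (M₀ M₁ : Matrix K (A × B) ℂ) (W : Matrix K K ℂ) (hW : (1 - W * Wᴴ).PosSemidef)
    {ε : ℝ} (hε : 0 < ε) :
    ∃ T : Matrix (ZA × ZB) (ZA × ZB) ℂ, T.IsHermitian ∧ 0 ≤ (R * R * T).trace.re ∧
      (fromBlocks (dual (kJ JA JB) (M₀ᴴ * M₀) + (ε : ℂ) • 1) T T
        (dual (kJ JA JB) (M₁ᴴ * M₁) + (ε : ℂ) • 1)).PosSemidef ∧
      ‖(ρ * (M₀ᴴ * W * M₁)).trace‖ ^ 4 ≤ (ρ * (M₀ᴴ * M₀)).trace.re
        * (ρ * (M₁ᴴ * M₁)).trace.re * (R * R * T).trace.re ^ 2 := by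
  set J := kJ JA JB with hJ
  have hρ := hd.psd
  let ψ : K → A × B → ℂ := fun i a => (M₀ᴴ * W) a i
  let φ : K → A × B → ℂ := fun i a => M₁ᴴ a i
  have sψ : ∑ i, vecMulVec (ψ i) (star (ψ i)) = M₀ᴴ * W * Wᴴ * M₀ := by
    rw [← mul_conjTranspose_eq_sum (M₀ᴴ * W) (M₀ᴴ * W), conjTranspose_mul,
      conjTranspose_conjTranspose]
    simp only [Matrix.mul_assoc]
  have sφ : ∑ i, vecMulVec (φ i) (star (φ i)) = M₁ᴴ * M₁ := by
    rw [← mul_conjTranspose_eq_sum M₁ᴴ M₁ᴴ, conjTranspose_conjTranspose]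
  have sψφ : ∑ i, vecMulVec (ψ i) (star (φ i)) = M₀ᴴ * W * M₁ := by
    rw [← mul_conjTranspose_eq_sum (M₀ᴴ * W) M₁ᴴ, conjTranspose_conjTranspose]
  have hgap : (M₀ᴴ * M₀ - M₀ᴴ * W * Wᴴ * M₀).PosSemidef := by
    have := hW.conjTranspose_mul_mul_same M₀
    rwa [Matrix.mul_sub, Matrix.sub_mul, Matrix.mul_one, ← Matrix.mul_assoc] at this
  set e := ε / (Fintype.card K + 1) with he
  have he0 : 0 < e := by positivity
  have hNe : (Fintype.card K : ℝ) * e ≤ ε := by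
    rw [he, mul_div_assoc', div_le_iff₀ (by positivity)]
    nlinarith
  choose X hXH hXb hX0 hXf using fun i => hd.pair (ψ i) (φ i) he0
  have qnn : ∀ x, 0 ≤ (qf ρ x x).re := fun x =>
    (Complex.nonneg_iff.1 (hρ.dotProduct_mulVec_nonneg x)).1
  have hTx : (R * R * ∑ i, X i).trace.re = ∑ i, (R * R * X i).trace.re := by
    rw [Finset.mul_sum, trace_sum, Complex.re_sum]
  refine ⟨∑ i, X i, ?_, hTx ▸ Finset.sum_nonneg fun i _ => hX0 i, ?_, ?_⟩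
  · rw [IsHermitian, conjTranspose_sum]
    exact Finset.sum_congr rfl fun i _ => (hXH i).eq
  · have hsum := sum_psd Finset.univ fun i _ => hXb i
    rw [fromBlocks_sum, Finset.sum_add_distrib, Finset.sum_add_distrib, ← dual_sum, ← dual_sum,
      sψ, sφ] at hsum
    have h1 := hsum.add (diag_psd
      ((dual_psd J hgap).add (psd_smul PosSemidef.one (sub_nonneg.2 hNe)))
      (psd_smul PosSemidef.one (sub_nonneg.2 hNe)))
    convert h1 using 1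
    simp only [fromBlocks_add, add_zero, dual_sub, Finset.sum_const, Finset.card_univ]
    congr 1 <;> (push_cast; module)
  · rw [hTx]
    refine sum_overlap (norm_nonneg _) (g := fun i => ‖qf ρ (ψ i) (φ i)‖) ?_ (fun i => qnn (ψ i))
      (fun i => qnn (φ i)) hX0 hXf ?_ ?_
    · rw [← sψφ, Finset.mul_sum, trace_sum]
      refine (norm_sum_le _ _).trans (le_of_eq (Finset.sum_congr rfl fun i _ => ?_))
      rw [← qf_trace, qf_swap hρ.1, norm_star]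
    · have := trace_mul_nonneg hρ hgap
      simp only [qf_trace, ← Complex.re_sum, ← trace_sum, ← Finset.mul_sum, sψ]
      rw [Matrix.mul_sub, trace_sub, Complex.sub_re] at this
      linarith
    · simp only [qf_trace, ← Complex.re_sum, ← trace_sum, ← Finset.mul_sum, sφ, le_refl]

/-- Under the certificate the test fails: the overlap is bounded by the four weights. -/
theorem test_le {JA : Matrix (PA × ZA) A ℂ} {JB : Matrix (PB × ZB) B ℂ}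
    {R : Matrix (ZA × ZB) (ZA × ZB) ℂ} {ρ ρi : Matrix (A × B) (A × B) ℂ}
    {D : Matrix ((PA × PB) × (ZA × ZB)) ((PA × PB) × (ZA × ZB)) ℂ}
    (hd : Data (kJ JA JB) R ρ ρi D) {k l : ℕ} (a₀ a₁ : Matrix (Fin k) A ℂ)
    (b₀ b₁ : Matrix (Fin l) B ℂ) (W : Matrix (Fin k × Fin l) (Fin k × Fin l) ℂ)
    (hW : (1 - W * Wᴴ).PosSemidef) :
    ‖(ρ * ((a₀ ⊗ₖ b₀)ᴴ * W * (a₁ ⊗ₖ b₁))).trace‖ ^ 4
      ≤ (ρ * ((a₀ᴴ * a₀) ⊗ₖ (b₀ᴴ * b₀))).trace.re
        * (ρ * ((a₀ᴴ * a₀) ⊗ₖ (b₁ᴴ * b₁))).trace.re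
        * (ρ * ((a₁ᴴ * a₁) ⊗ₖ (b₀ᴴ * b₀))).trace.re
        * (ρ * ((a₁ᴴ * a₁) ⊗ₖ (b₁ᴴ * b₁))).trace.re := by
  have hρ := hd.psd
  set A₀ := dual JA (a₀ᴴ * a₀) with hA₀
  set A₁ := dual JA (a₁ᴴ * a₁) with hA₁
  set B₀ := dual JB (b₀ᴴ * b₀) with hB₀
  set B₁ := dual JB (b₁ᴴ * b₁) with hB₁
  have hM00 : (a₀ ⊗ₖ b₀)ᴴ * (a₀ ⊗ₖ b₀) = (a₀ᴴ * a₀) ⊗ₖ (b₀ᴴ * b₀) := by
    rw [conjTranspose_kronecker, mul_kronecker_mul]
  have hM11 : (a₁ ⊗ₖ b₁)ᴴ * (a₁ ⊗ₖ b₁) = (a₁ᴴ * a₁) ⊗ₖ (b₁ᴴ * b₁) := by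
    rw [conjTranspose_kronecker, mul_kronecker_mul]
  set F := ‖(ρ * ((a₀ ⊗ₖ b₀)ᴴ * W * (a₁ ⊗ₖ b₁))).trace‖ with hF
  set p00 := (ρ * ((a₀ᴴ * a₀) ⊗ₖ (b₀ᴴ * b₀))).trace.re with h00
  set p01 := (ρ * ((a₀ᴴ * a₀) ⊗ₖ (b₁ᴴ * b₁))).trace.re with h01
  set p10 := (ρ * ((a₁ᴴ * a₁) ⊗ₖ (b₀ᴴ * b₀))).trace.re with h10
  set p11 := (ρ * ((a₁ᴴ * a₁) ⊗ₖ (b₁ᴴ * b₁))).trace.re with h11
  have hA0p : A₀.PosSemidef := dual_psd JA (posSemidef_conjTranspose_mul_self a₀)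
  have hA1p : A₁.PosSemidef := dual_psd JA (posSemidef_conjTranspose_mul_self a₁)
  have hB0p : B₀.PosSemidef := dual_psd JB (posSemidef_conjTranspose_mul_self b₀)
  have hB1p : B₁.PosSemidef := dual_psd JB (posSemidef_conjTranspose_mul_self b₁)
  have hpp : 0 ≤ p00 * p11 := mul_nonneg
    (trace_mul_nonneg hρ ((posSemidef_conjTranspose_mul_self a₀).kronecker
      (posSemidef_conjTranspose_mul_self b₀)))
    (trace_mul_nonneg hρ ((posSemidef_conjTranspose_mul_self a₁).kronecker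
      (posSemidef_conjTranspose_mul_self b₁)))
  have main : ∀ δ : ℝ, 0 < δ → F ^ 4 ≤ p00 * p11
      * ((R * R * ((A₀ + (δ : ℂ) • 1) ⊗ₖ (B₁ + (δ : ℂ) • 1))).trace.re
        * (R * R * ((A₁ + (δ : ℂ) • 1) ⊗ₖ (B₀ + (δ : ℂ) • 1))).trace.re) := by
    intro δ hδ
    obtain ⟨T, hTH, hx, hb, hF4⟩ := test_op hd (a₀ ⊗ₖ b₀) (a₁ ⊗ₖ b₁) W hW (pow_pos hδ 2)
    rw [hM00, hM11, dual_kJ, dual_kJ, ← hA₀, ← hA₁, ← hB₀, ← hB₁] at hb
    rw [← hF, hM00, hM11, ← h00, ← h11] at hF4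
    have hδA : ((δ : ℂ) • (1 : Matrix ZA ZA ℂ)).PosDef :=
      PosDef.one.smul (Complex.zero_lt_real.2 hδ)
    have hδB : ((δ : ℂ) • (1 : Matrix ZB ZB ℂ)).PosDef :=
      PosDef.one.smul (Complex.zero_lt_real.2 hδ)
    have h1 := hb.add (diag_psd
      ((psd_smul (hA0p.kronecker PosSemidef.one) hδ.le).add
        (psd_smul (PosSemidef.one.kronecker hB0p) hδ.le))
      ((psd_smul (hA1p.kronecker PosSemidef.one) hδ.le).add
        (psd_smul (PosSemidef.one.kronecker hB1p) hδ.le)))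
    have hblock : (fromBlocks ((A₀ + (δ : ℂ) • 1) ⊗ₖ (B₀ + (δ : ℂ) • 1)) T T
        ((A₁ + (δ : ℂ) • 1) ⊗ₖ (B₁ + (δ : ℂ) • 1))).PosSemidef := by
      convert h1 using 1
      simp only [fromBlocks_add, add_zero, add_kronecker, kronecker_add, smul_kronecker,
        kronecker_smul, one_kronecker_one]
      congr 1 <;> (push_cast; module)
    exact hF4.trans (mul_le_mul_of_nonneg_left (geo (PosDef.posSemidef_add hA0p hδA)
      (PosDef.posSemidef_add hB0p hδB) (hA1p.add hδA.posSemidef) (hB1p.add hδB.posSemidef)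
      hd.hR hTH hblock hx) hpp)
  have e01 : (R * R * (A₀ ⊗ₖ B₁)).trace.re = p01 := by
    rw [hA₀, hB₁, ← dual_kJ, ← trace_chan, hd.heq]
  have e10 : (R * R * (A₁ ⊗ₖ B₀)).trace.re = p10 := by
    rw [hA₁, hB₀, ← dual_kJ, ← trace_chan, hd.heq]
  simp only [p_expand, e01, e10] at main
  have hc : Continuous fun δ : ℝ => p00 * p11
      * ((p01 + δ * (R * R * (A₀ ⊗ₖ 1 + 1 ⊗ₖ B₁)).trace.re + δ ^ 2 * (R * R).trace.re)
        * (p10 + δ * (R * R * (A₁ ⊗ₖ 1 + 1 ⊗ₖ B₀)).trace.re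
          + δ ^ 2 * (R * R).trace.re)) := by fun_prop
  have hlim := ge_of_tendsto ((hc.tendsto (0 : ℝ)).mono_left nhdsWithin_le_nhds)
    (eventually_nhdsWithin_of_forall (s := Set.Ioi (0 : ℝ)) main)
  simp at hlim
  linarith

end test

end Vale.Agent.P372.Stack
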