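import Vale.Agent.P372.ExactDefs
import Vale.Agent.P372.Bnd

/-!
Stacked Kraus maps, and Schwarz-type lemmas for complex matrices.
-/

noncomputable section

open Matrix Finset
open scoped ComplexOrder Kronecker MatrixOrder

namespace Vale.Agent.P372.Stack

/-- The product of two stacked Kraus maps, the two environments first. -/
def kJ {A B PA PB ZA ZB : Type} (JA : Matrix (PA × ZA) A ℂ) (JB : Matrix (PB × ZB) B ℂ) :
    Matrix ((PA × PB) × (ZA × ZB)) (A × B) ℂ :=
  Matrix.of fun i j => JA (i.1.1, i.2.1) j.1 * JB (i.1.2, i.2.2) j.2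

/-- The completely positive map with stacked Kraus operators `J`. -/
def chan {P Z I : Type} [Fintype P] [DecidableEq P] [Fintype Z] (J : Matrix (P × Z) I ℂ)
    (X : Matrix Z Z ℂ) : Matrix I I ℂ :=
  Jᴴ * ((1 : Matrix P P ℂ) ⊗ₖ X) * J

/-- The trace dual of `chan J`. -/
def dual {P Z I : Type} [Fintype P] [Fintype I] (J : Matrix (P × Z) I ℂ) (M : Matrix I I ℂ) :
    Matrix Z Z ℂ :=
  ∑ p, (J * M * Jᴴ).submatrix (Prod.mk p) (Prod.mk p)

section gen
variable {ι κ : Type} [Fintype ι] [Fintype κ] [DecidableEq ι] [DecidableEq κ]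

/-- A sesquilinear form. -/
def qf (N : Matrix ι ι ℂ) (x y : ι → ℂ) : ℂ := star x ⬝ᵥ (N *ᵥ y)

omit [DecidableEq ι] in
theorem qf_trace (N : Matrix ι ι ℂ) (x y : ι → ℂ) :
    qf N x y = (N * vecMulVec y (star x)).trace := by
  rw [qf, mul_vecMulVec, trace_vecMulVec, dotProduct_comm]

omit [DecidableEq ι] in
theorem qf_swap {N : Matrix ι ι ℂ} (hN : N.IsHermitian) (x y : ι → ℂ) :
    qf N y x = star (qf N x y) := by
  rw [qf, qf, ← star_dotProduct (N *ᵥ y) x, star_mulVec, hN.eq, ← dotProduct_mulVec]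

theorem qf_cs {N : Matrix ι ι ℂ} (hN : N.PosSemidef) (x y : ι → ℂ) :
    ‖qf N x y‖ ^ 2 ≤ (qf N x x).re * (qf N y y).re := by
  obtain ⟨G, rfl⟩ := exists_factor hN
  have h : ∀ a b, qf (G * Gᴴ) a b = star (Gᴴ *ᵥ a) ⬝ᵥ (Gᴴ *ᵥ b) := fun a b => by
    rw [qf, star_mulVec, conjTranspose_conjTranspose, ← dotProduct_mulVec, mulVec_mulVec]
  rw [h, h, h, dot_self, dot_self, Complex.ofReal_re, Complex.ofReal_re, ← sq_vn, ← sq_vn,
    ← mul_pow]
  exact pow_le_pow_left₀ (norm_nonneg _) (norm_dot_le _ _) 2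

theorem trace_mul_nonneg {N M : Matrix ι ι ℂ} (hN : N.PosSemidef) (hM : M.PosSemidef) :
    0 ≤ (N * M).trace.re := by
  obtain ⟨G, rfl⟩ := exists_factor hN
  rw [Matrix.mul_assoc, trace_mul_comm]
  exact (Complex.nonneg_iff.1 (hM.conjTranspose_mul_mul_same G).trace_nonneg).1

omit [Fintype ι] [DecidableEq ι] in
theorem psd_smul {X : Matrix ι ι ℂ} (hX : X.PosSemidef) {c : ℝ} (hc : 0 ≤ c) :
    ((c : ℂ) • X).PosSemidef :=
  hX.smul (Complex.zero_le_real.2 hc)

omit [DecidableEq ι] in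
theorem sq_psd {R : Matrix ι ι ℂ} (hR : R.IsHermitian) : (R * R).PosSemidef := by
  have h := posSemidef_conjTranspose_mul_self R
  rwa [hR.eq] at h

theorem diag_psd {A : Matrix ι ι ℂ} {D : Matrix κ κ ℂ} (hA : A.PosSemidef) (hD : D.PosSemidef) :
    (fromBlocks A 0 0 D).PosSemidef := by
  obtain ⟨G, rfl⟩ := exists_factor hA
  obtain ⟨G', rfl⟩ := exists_factor hD
  have h : fromBlocks (G * Gᴴ) 0 0 (G' * G'ᴴ)
      = fromBlocks G 0 0 G' * (fromBlocks G 0 0 G')ᴴ := by
    simp [fromBlocks_conjTranspose, fromBlocks_multiply]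
  rw [h]
  exact posSemidef_self_mul_conjTranspose _

omit [Fintype ι] [DecidableEq ι] in
theorem sum_psd {J : Type} (s : Finset J) {X : J → Matrix ι ι ℂ}
    (h : ∀ j ∈ s, (X j).PosSemidef) : (∑ j ∈ s, X j).PosSemidef :=
  Matrix.posSemidef_sum s h

/-- The sign change `H` turns `[[p, c], [c, p]]` into `diag(p + c, p - c)`. -/
def had : Matrix (ι ⊕ ι) (ι ⊕ ι) ℂ := fromBlocks 1 1 1 (-1)

omit [Fintype κ] [DecidableEq κ] in
theorem had_conj (A B C D : Matrix ι ι ℂ) :
    (had : Matrix (ι ⊕ ι) (ι ⊕ ι) ℂ)ᴴ * fromBlocks A B C D * had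
      = fromBlocks (A + B + C + D) (A - B + C - D) (A + B - C - D) (A - B - C + D) := by
  simp only [had, fromBlocks_conjTranspose, conjTranspose_one, conjTranspose_neg,
    fromBlocks_multiply, Matrix.one_mul, Matrix.mul_one, Matrix.neg_mul, Matrix.mul_neg]
  congr 1 <;> abel

/-- Congruence of a two by two block by a diagonal one. -/
theorem block_conj {A X D U V : Matrix ι ι ℂ} (h : (fromBlocks A X X D).PosSemidef) :
    (fromBlocks (Uᴴ * A * U) (Uᴴ * X * V) (Vᴴ * X * U) (Vᴴ * D * V)).PosSemidef := by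
  have h1 := h.conjTranspose_mul_mul_same (fromBlocks U 0 0 V)
  simpa [fromBlocks_conjTranspose, fromBlocks_multiply, Matrix.mul_assoc] using h1

omit [Fintype ι] [DecidableEq ι] in
theorem fromBlocks_sum {J : Type} (s : Finset J) (A B C D : J → Matrix ι ι ℂ) :
    ∑ j ∈ s, fromBlocks (A j) (B j) (C j) (D j)
      = fromBlocks (∑ j ∈ s, A j) (∑ j ∈ s, B j) (∑ j ∈ s, C j) (∑ j ∈ s, D j) := by
  ext (i | i) (j | j) <;> simp [Matrix.sum_apply]

/-- The square root is monotone, in the case needed here. -/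
theorem le_of_sq_le {X S : Matrix ι ι ℂ} (hX : X.IsHermitian) (hS : S.PosSemidef)
    (h : (S * S - X * X).PosSemidef) : (S - X).PosSemidef := by
  have hH : (S - X).IsHermitian := hS.1.sub hX
  rw [hH.posSemidef_iff_eigenvalues_nonneg]
  intro i
  simp only [Pi.zero_apply]
  by_contra hneg
  set t : ℝ := -hH.eigenvalues i with ht
  have ht0 : 0 < t := by linarith [lt_of_not_ge hneg]
  set v : ι → ℂ := ⇑(hH.eigenvectorBasis i) with hv
  have hSX : (S - X) *ᵥ v = (hH.eigenvalues i) • v := hH.mulVec_eigenvectorBasis i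
  have hX' : X *ᵥ v = S *ᵥ v + (t : ℂ) • v := by
    rw [sub_mulVec] at hSX
    ext j
    have := congrFun hSX j
    simp [ht] at this ⊢
    linear_combination -this
  have hv0 : 0 < (star v ⬝ᵥ v).re := by
    have hne : v ≠ 0 := by
      rw [hv]
      intro hz
      exact hH.eigenvectorBasis.orthonormal.ne_zero i (by ext j; exact congrFun hz j)
    exact (Complex.pos_iff.1 (dotProduct_star_self_pos_iff.2 hne)).1
  have h0 := (Complex.nonneg_iff.1 (h.dotProduct_mulVec_nonneg v)).1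
  have hm : ∀ (M : Matrix ι ι ℂ), M.IsHermitian →
      star v ⬝ᵥ ((M * M) *ᵥ v) = star (M *ᵥ v) ⬝ᵥ (M *ᵥ v) := fun M hM => by
    rw [star_mulVec, hM.eq, ← dotProduct_mulVec, mulVec_mulVec]
  have hSv : star (S *ᵥ v) ⬝ᵥ v = star v ⬝ᵥ (S *ᵥ v) := by
    rw [star_mulVec, hS.1.eq, ← dotProduct_mulVec]
  rw [sub_mulVec, dotProduct_sub, hm S hS.1, hm X hX, hX'] at h0
  simp only [star_add, star_smul, dotProduct_add, add_dotProduct, smul_dotProduct,
    dotProduct_smul, hSv, smul_eq_mul, Complex.sub_re, Complex.add_re, Complex.mul_re,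
    RCLike.star_def, Complex.conj_ofReal, Complex.ofReal_re, Complex.ofReal_im, zero_mul,
    sub_zero] at h0
  have h1 := (Complex.nonneg_iff.1 (hS.dotProduct_mulVec_nonneg v)).1
  nlinarith [mul_pos (mul_pos ht0 ht0) hv0, mul_nonneg ht0.le h1]

/-- Cauchy-Schwarz for two commuting observables in a positive functional. -/
theorem commute_cs {N s r : Matrix ι ι ℂ} (hN : N.PosSemidef) (hs : s.IsHermitian)
    (hr : r.IsHermitian) (hc : s * r = r * s) :
    (N * (s * r)).trace.re ^ 2 ≤ (N * (s * s)).trace.re * (N * (r * r)).trace.re := by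
  have h : ∀ t : ℝ, 0 ≤ (N * (r * r)).trace.re * (t * t)
      + (-2 * (N * (s * r)).trace.re) * t + (N * (s * s)).trace.re := by
    intro t
    have hH : (s - (t : ℂ) • r).IsHermitian := by
      rw [IsHermitian, conjTranspose_sub, conjTranspose_smul, hs.eq, hr.eq]
      simp
    have h0 := trace_mul_nonneg hN (sq_psd hH)
    simp only [Matrix.sub_mul, Matrix.mul_sub, Matrix.smul_mul, Matrix.mul_smul, smul_smul,
      trace_sub, trace_smul, ← hc, smul_eq_mul, Complex.sub_re, Complex.mul_re, Complex.mul_im,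
      Complex.ofReal_re, Complex.ofReal_im, zero_mul, mul_zero, add_zero, sub_zero] at h0
    nlinarith
  have hd := discrim_le_zero h
  rw [discrim] at hd
  nlinarith

end gen

end Vale.Agent.P372.Stack
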